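import Vale.Agent.P370Z.BRIDGE.Form
import Vale.Agent.P363.H382.Energy

/-!
# P370, bridge: antisymmetric `C¹` functions with compact support are dense
-/

namespace Vale.Agent.P370Z.BRIDGE

open MeasureTheory Finset Filter Topology
open Vale.Agent.P363.Stmt Vale.Agent.P363.R.Sob Vale.Agent.P363.H382

noncomputable section

variable {N : ℕ}

/-- Admissible functions in the physical coordinates. -/
def AdmC (f : Sp N → Conf N → ℝ) : Prop :=
  (∀ s, C1c (f s)) ∧ ∀ (π : Equiv.Perm (Fin N)) (s : Sp N) (x : Conf N),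
    f (s ∘ π) (x ∘ π) = ((Equiv.Perm.sign π : ℤ) : ℝ) * f s x

def nsqC (f : Sp N → Conf N → ℝ) : ℝ := ∑ s, ∫ x, f s x ^ 2

def enG (w : Conf N → ℝ) (f : Sp N → Conf N → ℝ) (g : Sp N → Fin N → Fin 3 → Conf N → ℝ) : ℝ :=
  ∑ s, ((1 / 2) * (∑ i, ∑ k, ∫ x, g s i k x ^ 2) + ∫ x, w x * f s x ^ 2)

def enC (w : Conf N → ℝ) (f : Sp N → Conf N → ℝ) : ℝ :=
  enG w f fun s i k x => fderiv ℝ (f s) x (dir i k)

theorem sign_sq (π : Equiv.Perm (Fin N)) : ((Equiv.Perm.sign π : ℤ) : ℝ) ^ 2 = 1 := by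
  rcases Int.units_eq_one_or (Equiv.Perm.sign π) with h | h <;> simp [h]

/-- An average of sequences that tend to zero in `L²` tends to zero in `L²`. -/
theorem tendsto_avg {ι : Type*} [Fintype ι] {d : ι → ℕ → Conf N → ℝ} (c : ℝ) {ε : ι → ℝ}
    (hε : ∀ σ, ε σ ^ 2 = 1) (hm : ∀ σ n, MemLp (d σ n) 2 volume)
    (ht : ∀ σ, Tendsto (fun n => ∫ x, d σ n x ^ 2) atTop (𝓝 0)) {D : ℕ → Conf N → ℝ}
    (hD : ∀ n, D n =ᵐ[volume] fun x => c * ∑ σ, ε σ * d σ n x) :
    Tendsto (fun n => ∫ x, D n x ^ 2) atTop (𝓝 0) := by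
  have h1 : Tendsto (fun n => c ^ 2 * Fintype.card ι * ∑ σ, ∫ x, d σ n x ^ 2) atTop (𝓝 0) := by
    simpa using (tendsto_finsetSum univ fun σ _ => ht σ).const_mul (c ^ 2 * Fintype.card ι)
  refine squeeze_zero (fun n => integral_nonneg fun x => sq_nonneg _) (fun n => ?_) h1
  have hi : ∀ σ ∈ (univ : Finset ι), Integrable (fun x => d σ n x ^ 2) :=
    fun σ _ => (hm σ n).integrable_sq
  rw [← integral_finsetSum _ hi, ← integral_const_mul]
  refine integral_mono_of_nonneg (Eventually.of_forall fun x => sq_nonneg _)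
    ((integrable_finsetSum _ hi).const_mul _) ?_
  filter_upwards [hD n] with x hx
  rw [hx, mul_pow, mul_assoc]
  refine mul_le_mul_of_nonneg_left ?_ (sq_nonneg c)
  have h2 := sq_sum_le_card_mul_sum_sq (s := univ) (f := fun σ => ε σ * d σ n x)
  simpa [mul_pow, hε] using h2

theorem exists_approx {f : Conf N → ℝ} {g : Fin N → Fin 3 → Conf N → ℝ} (h : H1 f g) :
    ∃ fn : ℕ → Conf N → ℝ, (∀ n, C1c (fn n)) ∧
      Tendsto (fun n => ∫ x, (fn n x - f x) ^ 2) atTop (𝓝 0) ∧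
      ∀ i k, Tendsto (fun n => ∫ x, (fderiv ℝ (fn n) x (dir i k) - g i k x) ^ 2) atTop (𝓝 0) := by
  obtain ⟨fn, h1, h2, h3, h4⟩ := exists_test_approx (ι := Fin N × Fin 3)
    (b := fun p => dir p.1 p.2) (g := fun p => g p.1 p.2) h.mf (fun p => h.mg p.1 p.2)
    (fun p => h.wd p.1 p.2)
  have hc : ∀ n, C1c (fn n) := fun n => ⟨(h1 n).of_le (by exact_mod_cast le_top), h2 n⟩
  refine ⟨fn, hc, ?_, fun i k => ?_⟩
  · have := tendsto_integral_sq_of_eLpNorm (fun n => (H1.of_c1c (hc n)).mf.sub h.mf) h3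
    simpa using this
  · have := tendsto_integral_sq_of_eLpNorm
      (fun n => ((H1.of_c1c (hc n)).mg i k).sub (h.mg i k)) (h4 (i, k))
    simpa using this

/-- The antisymmetrization. -/
def anti (F : Sp N → Conf N → ℝ) (s : Sp N) (x : Conf N) : ℝ :=
  ((Fintype.card (Equiv.Perm (Fin N)) : ℝ))⁻¹ *
    ∑ σ : Equiv.Perm (Fin N), ((Equiv.Perm.sign σ : ℤ) : ℝ) * F (s ∘ σ) (permE σ x)

theorem c1c_comp {f : Conf N → ℝ} (hf : C1c f) (σ : Equiv.Perm (Fin N)) :
    C1c fun x => f (permE σ x) :=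
  ⟨hf.1.comp (permE σ).contDiff, hf.2.comp_homeomorph (permE σ).toHomeomorph⟩

theorem admC_anti {F : Sp N → Conf N → ℝ} (hF : ∀ s, C1c (F s)) : AdmC (anti F) := by
  refine ⟨fun s => ⟨?_, ?_⟩, fun π s x => ?_⟩
  · exact contDiff_const.mul (ContDiff.sum fun σ _ => contDiff_const.mul (c1c_comp (hF _) σ).1)
  · refine HasCompactSupport.mul_left ?_
    have h : ∀ t : Finset (Equiv.Perm (Fin N)), HasCompactSupport fun x : Conf N =>
        ∑ σ ∈ t, ((Equiv.Perm.sign σ : ℤ) : ℝ) * F (s ∘ σ) (permE σ x) := by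
      intro t
      induction t using Finset.induction_on with
      | empty =>
        simp only [sum_empty]
        exact HasCompactSupport.zero
      | insert a t ha ih =>
        simp only [sum_insert ha]
        exact HasCompactSupport.add (HasCompactSupport.mul_left (c1c_comp (hF _) a).2) ih
    exact h univ
  · unfold anti
    rw [mul_left_comm, mul_sum univ _ ((Equiv.Perm.sign π : ℤ) : ℝ)]
    congr 1
    rw [← Equiv.sum_comp (Equiv.mulLeft π)
      (fun σ => ((Equiv.Perm.sign π : ℤ) : ℝ) * (((Equiv.Perm.sign σ : ℤ) : ℝ) *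
        F (s ∘ σ) (permE σ x)))]
    refine sum_congr rfl fun σ _ => ?_
    have h1 := sign_sq π
    simp only [Equiv.coe_mulLeft, Equiv.Perm.sign_mul, Units.val_mul, Int.cast_mul, permE_apply,
      Equiv.Perm.coe_mul]
    change _ * F (s ∘ (π ∘ σ)) (x ∘ (π ∘ σ)) = _
    linear_combination (-(((Equiv.Perm.sign σ : ℤ) : ℝ) * F (s ∘ (π ∘ σ)) (x ∘ (π ∘ σ)))) * h1

theorem fderiv_anti {F : Sp N → Conf N → ℝ} (hF : ∀ s, C1c (F s)) (s : Sp N) (x : Conf N)
    (i : Fin N) (k : Fin 3) : fderiv ℝ (anti F s) x (dir i k) =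
      ((Fintype.card (Equiv.Perm (Fin N)) : ℝ))⁻¹ * ∑ σ : Equiv.Perm (Fin N),
        ((Equiv.Perm.sign σ : ℤ) : ℝ) * fderiv ℝ (F (s ∘ σ)) (permE σ x) (dir (σ.symm i) k) := by
  have h1 : ∀ σ : Equiv.Perm (Fin N), HasFDerivAt (fun x => F (s ∘ σ) (permE σ x))
      ((fderiv ℝ (F (s ∘ σ)) (permE σ x)).comp (permE σ : Conf N →L[ℝ] Conf N)) x := fun σ =>
    ((hF _).1.differentiable (by simp) _).hasFDerivAt.comp x (permE σ).hasFDerivAt
  have h2 := (HasFDerivAt.fun_sum (u := univ) fun σ _ =>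
    (h1 σ).const_mul ((Equiv.Perm.sign σ : ℤ) : ℝ)).const_mul
      ((Fintype.card (Equiv.Perm (Fin N)) : ℝ))⁻¹
  have h3 : fderiv ℝ (anti F s) x = _ := h2.fderiv
  rw [h3]
  simp only [_root_.smul_apply, _root_.sum_apply,
    ContinuousLinearMap.comp_apply, ContinuousLinearEquiv.coe_coe, dir_comp, smul_eq_mul]

theorem avg_sign (y : ℝ) : y = ((Fintype.card (Equiv.Perm (Fin N)) : ℝ))⁻¹ *
    ∑ σ : Equiv.Perm (Fin N), ((Equiv.Perm.sign σ : ℤ) : ℝ) * (((Equiv.Perm.sign σ : ℤ) : ℝ) * y) := by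
  have h : ∀ σ : Equiv.Perm (Fin N),
      ((Equiv.Perm.sign σ : ℤ) : ℝ) * (((Equiv.Perm.sign σ : ℤ) : ℝ) * y) = y := fun σ => by
    linear_combination y * sign_sq σ
  simp only [h, sum_const, card_univ, nsmul_eq_mul]
  have : (Fintype.card (Equiv.Perm (Fin N)) : ℝ) ≠ 0 := by exact_mod_cast Fintype.card_ne_zero
  field_simp

/-- A lower bound for admissible functions extends to real antisymmetric `H¹` functions. -/
theorem low_real {w : Conf N → ℝ} (hw : FB w) {b : ℝ}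
    (h : ∀ f : Sp N → Conf N → ℝ, AdmC f → b * nsqC f ≤ enC w f)
    {u : Sp N → Conf N → ℝ} {g : Sp N → Fin N → Fin 3 → Conf N → ℝ} (hu : ∀ s, H1 (u s) (g s))
    (hua : ∀ (σ : Equiv.Perm (Fin N)) (s : Sp N), ∀ᵐ x : Conf N,
      u (s ∘ σ) (x ∘ σ) = ((Equiv.Perm.sign σ : ℤ) : ℝ) * u s x)
    (hga : ∀ (σ : Equiv.Perm (Fin N)) (s : Sp N) (i : Fin N) (k : Fin 3), ∀ᵐ x : Conf N,
      g (s ∘ σ) (σ.symm i) k (x ∘ σ) = ((Equiv.Perm.sign σ : ℤ) : ℝ) * g s i k x) :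
    b * nsqC u ≤ enG w u g := by
  choose fn hc hf hg using fun s => exists_approx (hu s)
  set Fn : ℕ → Sp N → Conf N → ℝ := fun n => anti fun s => fn s n with hFn
  have hadm : ∀ n, AdmC (Fn n) := fun n => admC_anti fun s => hc s n
  have hH : ∀ s n, H1 (Fn n s) fun i k x => fderiv ℝ (Fn n s) x (dir i k) := fun s n =>
    H1.of_c1c ((hadm n).1 s)
  have hF : ∀ s, Tendsto (fun n => ∫ x, (Fn n s x - u s x) ^ 2) atTop (𝓝 0) := by
    intro s
    refine tendsto_avg (d := fun (σ : Equiv.Perm (Fin N)) n x =>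
      fn (s ∘ σ) n (permE σ x) - u (s ∘ σ) (permE σ x))
      ((Fintype.card (Equiv.Perm (Fin N)) : ℝ))⁻¹ sign_sq (fun σ n => ?_) (fun σ => ?_)
      (fun n => ?_)
    · exact ((H1.of_c1c (hc _ n)).mf.sub (hu _).mf).comp_measurePreserving (permE_mp σ)
    · refine (hf (s ∘ σ)).congr fun n => ?_
      exact (integral_perm σ fun x => (fn (s ∘ σ) n x - u (s ∘ σ) x) ^ 2).symm
    · filter_upwards [ae_all_iff.2 fun σ => hua σ s] with x hx
      simp only [hFn, anti, permE_apply, hx, mul_sub, sum_sub_distrib]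
      rw [← avg_sign]
  have hG : ∀ s i k, Tendsto (fun n => ∫ x, (fderiv ℝ (Fn n s) x (dir i k) - g s i k x) ^ 2)
      atTop (𝓝 0) := by
    intro s i k
    refine tendsto_avg (d := fun (σ : Equiv.Perm (Fin N)) n x =>
      fderiv ℝ (fn (s ∘ σ) n) (permE σ x) (dir (σ.symm i) k) - g (s ∘ σ) (σ.symm i) k (permE σ x))
      ((Fintype.card (Equiv.Perm (Fin N)) : ℝ))⁻¹ sign_sq (fun σ n => ?_) (fun σ => ?_)
      (fun n => ?_)
    · exact (((H1.of_c1c (hc _ n)).mg _ k).sub ((hu _).mg _ k)).comp_measurePreserving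
        (permE_mp σ)
    · refine (hg (s ∘ σ) (σ.symm i) k).congr fun n => ?_
      exact (integral_perm σ fun x =>
        (fderiv ℝ (fn (s ∘ σ) n) x (dir (σ.symm i) k) - g (s ∘ σ) (σ.symm i) k x) ^ 2).symm
    · filter_upwards [ae_all_iff.2 fun σ => hga σ s i k] with x hx
      simp only [hFn]
      rw [fderiv_anti (fun s => hc s n)]
      simp only [permE_apply, hx, mul_sub, sum_sub_distrib]
      rw [← avg_sign]
  have h1 : Tendsto (fun n => b * nsqC (Fn n)) atTop (𝓝 (b * nsqC u)) :=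
    (tendsto_finsetSum univ fun s _ => tendsto_sq (hu s).mf (fun n => (hH s n).mf) (hF s)).const_mul b
  have h2 : Tendsto (fun n => enC w (Fn n)) atTop (𝓝 (enG w u g)) := by
    refine tendsto_finsetSum univ fun s _ => Tendsto.add (Tendsto.const_mul _ ?_)
      (hw.tendsto (hu s) (hH s) (hF s) (hG s))
    exact tendsto_finsetSum univ fun i _ => tendsto_finsetSum univ fun k _ =>
      tendsto_sq ((hu s).mg i k) (fun n => (hH s n).mg i k) (hG s i k)
  exact le_of_tendsto_of_tendsto' h1 h2 fun n => h _ (hadm n)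

end

end Vale.Agent.P370Z.BRIDGE
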