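import Vale.Agent.P370Z.Basic
import Vale.Agent.P363.R.Sob.S16
import Vale.Agent.P363.R.Sob.S01
import Vale.Agent.P363.H382.Conv

/-!
# P370, bridge: real `H¹` functions and form bounded potentials
-/

namespace Vale.Agent.P370Z.BRIDGE

open MeasureTheory Finset Filter Topology
open Vale.Agent.P363.Stmt Vale.Agent.P363.R.Sob Vale.Agent.P363.H382

noncomputable section

variable {N : ℕ}

/-- `f` is in `H¹` with weak gradient `g`. -/
structure H1 (f : Conf N → ℝ) (g : Fin N → Fin 3 → Conf N → ℝ) : Prop where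
  mf : MemLp f 2 volume
  mg : ∀ i k, MemLp (g i k) 2 volume
  wd : ∀ i k, IsWD volume (dir i k) f (g i k)

theorem H1.sub {f f' : Conf N → ℝ} {g g' : Fin N → Fin 3 → Conf N → ℝ} (h : H1 f g)
    (h' : H1 f' g') : H1 (fun x => f x - f' x) (fun i k x => g i k x - g' i k x) :=
  ⟨h.mf.sub h'.mf, fun i k => (h.mg i k).sub (h'.mg i k), fun i k =>
    (h.wd i k).sub (h'.wd i k) (h.mf.locallyIntegrable (by norm_num))
      ((h.mg i k).locallyIntegrable (by norm_num)) (h'.mf.locallyIntegrable (by norm_num))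
      ((h'.mg i k).locallyIntegrable (by norm_num))⟩

theorem continuous_fderiv_dir {f : Conf N → ℝ} (hf : C1c f) (v : Conf N) :
    Continuous fun x => fderiv ℝ f x v :=
  (hf.1.continuous_fderiv (by simp)).clm_apply continuous_const

theorem H1.of_c1c {f : Conf N → ℝ} (hf : C1c f) : H1 f (fun i k x => fderiv ℝ f x (dir i k)) :=
  ⟨hf.1.continuous.memLp_of_hasCompactSupport hf.2,
    fun i k => (continuous_fderiv_dir hf _).memLp_of_hasCompactSupport
      (hf.2.fderiv_apply (𝕜 := ℝ) (dir i k)),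
    fun _ _ => isWD_of_differentiable hf.1.continuous
      (fun x => (hf.1.differentiable (by simp) x).hasFDerivAt.hasLineDerivAt _)
      (continuous_fderiv_dir hf _).locallyIntegrable⟩

/-- The squared `H¹` norm. -/
def h1sq (f : Conf N → ℝ) (g : Fin N → Fin 3 → Conf N → ℝ) : ℝ :=
  (∫ x, f x ^ 2) + ∑ i, ∑ k, ∫ x, g i k x ^ 2

theorem h1sq_nonneg (f : Conf N → ℝ) (g : Fin N → Fin 3 → Conf N → ℝ) : 0 ≤ h1sq f g :=
  add_nonneg (integral_nonneg fun _ => sq_nonneg _)
    (sum_nonneg fun _ _ => sum_nonneg fun _ _ => integral_nonneg fun _ => sq_nonneg _)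

/-- Form bounded potentials. -/
def FB (w : Conf N → ℝ) : Prop :=
  Measurable w ∧ ∃ C : ℝ, 0 ≤ C ∧ ∀ f g, H1 f g →
    Integrable (fun x => |w x| * f x ^ 2) ∧ ∫ x, |w x| * f x ^ 2 ≤ C * h1sq f g

theorem FB.integrable {w : Conf N → ℝ} (hw : FB w) {f : Conf N → ℝ}
    {g : Fin N → Fin 3 → Conf N → ℝ} (h : H1 f g) : Integrable (fun x => w x * f x ^ 2) := by
  obtain ⟨hm, C, -, hC⟩ := hw
  refine (hC f g h).1.mono' (hm.aestronglyMeasurable.mul (h.mf.1.pow 2))
    (Eventually.of_forall fun x => ?_)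
  rw [norm_mul, Real.norm_eq_abs, Real.norm_eq_abs, abs_of_nonneg (sq_nonneg (f x))]

theorem FB.zero : FB (fun _ : Conf N => 0) :=
  ⟨measurable_const, 0, le_rfl, fun f g _ => by simp⟩

theorem FB.add {w w' : Conf N → ℝ} (hw : FB w) (hw' : FB w') : FB (fun x => w x + w' x) := by
  obtain ⟨hm, C, hC0, hC⟩ := hw
  obtain ⟨hm', C', hC0', hC'⟩ := hw'
  refine ⟨hm.add hm', C + C', add_nonneg hC0 hC0', fun f g h => ?_⟩
  have hi := (hC f g h).1.add (hC' f g h).1
  have hle : ∀ x, |w x + w' x| * f x ^ 2 ≤ |w x| * f x ^ 2 + |w' x| * f x ^ 2 := fun x => by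
    rw [← add_mul]
    exact mul_le_mul_of_nonneg_right (abs_add_le _ _) (sq_nonneg _)
  have hint : Integrable (fun x => |w x + w' x| * f x ^ 2) := by
    refine hi.mono' ((hm.add hm').abs.aestronglyMeasurable.mul (h.mf.1.pow 2))
      (Eventually.of_forall fun x => ?_)
    rw [Real.norm_eq_abs, abs_of_nonneg (by positivity)]
    exact hle x
  refine ⟨hint, (integral_mono hint hi hle).trans ?_⟩
  have e := integral_add (hC f g h).1 (hC' f g h).1
  simp only [Pi.add_apply]
  rw [e, add_mul]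
  exact add_le_add (hC f g h).2 (hC' f g h).2

theorem FB.const_mul {w : Conf N → ℝ} (hw : FB w) (c : ℝ) : FB (fun x => c * w x) := by
  obtain ⟨hm, C, hC0, hC⟩ := hw
  refine ⟨hm.const_mul c, |c| * C, by positivity, fun f g h => ?_⟩
  simp only [abs_mul, mul_assoc]
  refine ⟨(hC f g h).1.const_mul _, ?_⟩
  rw [integral_const_mul]
  exact mul_le_mul_of_nonneg_left (hC f g h).2 (abs_nonneg _)

theorem FB.neg {w : Conf N → ℝ} (hw : FB w) : FB (fun x => -w x) := by
  simpa using hw.const_mul (-1)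

theorem FB.sum {ι : Type*} (s : Finset ι) {w : ι → Conf N → ℝ} (hw : ∀ i ∈ s, FB (w i)) :
    FB (fun x => ∑ i ∈ s, w i x) := by
  classical
  induction s using Finset.induction_on with
  | empty => simpa using FB.zero
  | insert a s ha ih =>
    simp only [sum_insert ha]
    exact (hw a (mem_insert_self a s)).add (ih fun i hi => hw i (mem_insert_of_mem hi))

theorem FB.list_sum {ι : Type*} (l : List ι) {w : ι → Conf N → ℝ} (hw : ∀ i, FB (w i)) :
    FB (fun x => (l.map fun i => w i x).sum) := by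
  induction l with
  | nil => simpa using FB.zero
  | cons a l ih =>
    simp only [List.map_cons, List.sum_cons]
    exact (hw a).add ih

theorem FB.coulomb (p : Conf N →L[ℝ] R3) (a : R3) (i : Fin N)
    (hp : ∀ k, p (dir i k) = EuclideanSpace.single k 1) : FB (fun x => 1 / ‖p x - a‖) := by
  refine ⟨measurable_const.div (by fun_prop : Continuous fun x => ‖p x - a‖).measurable, 1,
    zero_le_one, fun f g h => ?_⟩
  obtain ⟨h1, h2⟩ := coulomb_le p a (dir i) hp h.mf (h.mg i) (h.wd i)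
  have e : (fun x => |1 / ‖p x - a‖| * f x ^ 2) = fun x => ‖f x‖ ^ 2 / ‖p x - a‖ := by
    funext x
    rw [abs_of_nonneg (by positivity), Real.norm_eq_abs, sq_abs]
    ring
  rw [e]
  refine ⟨h1, (h2 1 one_pos).trans ?_⟩
  simp only [Real.norm_eq_abs, sq_abs, one_mul, div_one, h1sq]
  have h3 : ∑ k, ∫ x, g i k x ^ 2 ≤ ∑ i, ∑ k, ∫ x, g i k x ^ 2 :=
    single_le_sum (f := fun i => ∑ k, ∫ x, g i k x ^ 2)
      (fun _ _ => sum_nonneg fun _ _ => integral_nonneg fun _ => sq_nonneg _) (mem_univ i)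
  linarith

theorem fb_potential (I : Instance) : FB I.potential := by
  unfold Instance.potential
  refine FB.add (FB.neg (FB.sum _ fun i _ => FB.list_sum _ fun n => ?_))
    (FB.sum _ fun i _ => FB.sum _ fun j hj => ?_)
  · have h := (FB.coulomb (ContinuousLinearMap.proj i) (point n.1) i
      (fun k => by simp [dir, e3])).const_mul (n.2 : ℝ)
    simpa [div_eq_mul_inv] using h
  · have hij : j ≠ i := (mem_Ioi.1 hj).ne'
    have h := FB.coulomb (N := I.N)
      ((ContinuousLinearMap.proj i : Conf I.N →L[ℝ] R3) - ContinuousLinearMap.proj j) 0 i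
      (fun k => by
        change dir i k i - dir i k j = _
        simp [dir, e3, hij])
    refine (congrArg FB (funext fun x => ?_)).mp h
    change 1 / ‖x i - x j - 0‖ = _
    rw [sub_zero]

/-- Convergence of weighted squares. -/
theorem tendsto_weighted {α : Type*} [MeasurableSpace α] {μ : Measure α} {c f : α → ℝ}
    {fn : ℕ → α → ℝ} (h1 : Integrable (fun x => c x * f x ^ 2) μ)
    (h2 : ∀ n, Integrable (fun x => c x * fn n x ^ 2) μ)
    (h3 : ∀ n, Integrable (fun x => |c x| * (fn n x - f x) ^ 2) μ)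
    (ht : Tendsto (fun n => ∫ x, |c x| * (fn n x - f x) ^ 2 ∂μ) atTop (𝓝 0)) :
    Tendsto (fun n => ∫ x, c x * fn n x ^ 2 ∂μ) atTop (𝓝 (∫ x, c x * f x ^ 2 ∂μ)) := by
  have h1' : Integrable (fun x => |c x| * f x ^ 2) μ := by
    refine h1.abs.congr (Eventually.of_forall fun x => ?_)
    simp only [abs_mul, abs_of_nonneg (sq_nonneg (f x))]
  set A := ∫ x, |c x| * f x ^ 2 ∂μ with hA
  have hA0 : 0 ≤ A := integral_nonneg fun x => by positivity
  have key : ∀ η : ℝ, 0 < η → ∀ n, |∫ x, c x * fn n x ^ 2 ∂μ - ∫ x, c x * f x ^ 2 ∂μ| ≤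
      η * A + (1 + 1 / η) * ∫ x, |c x| * (fn n x - f x) ^ 2 ∂μ := by
    intro η hη n
    rw [← integral_sub (h2 n) h1, hA, ← integral_const_mul, ← integral_const_mul,
      ← integral_add (h1'.const_mul _) ((h3 n).const_mul _)]
    refine (abs_integral_le_integral_abs).trans (integral_mono ((h2 n).sub h1).abs
      ((h1'.const_mul _).add ((h3 n).const_mul _)) fun x => ?_)
    simp only
    rw [← mul_sub, abs_mul]
    have h4 : |fn n x ^ 2 - f x ^ 2| ≤ η * f x ^ 2 + (1 + 1 / η) * (fn n x - f x) ^ 2 := by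
      set d := fn n x - f x with hd
      have e : fn n x ^ 2 - f x ^ 2 = d ^ 2 + 2 * f x * d := by rw [hd]; ring
      have h5 : 0 ≤ (η * f x - d) ^ 2 / η := by positivity
      have h6 : 0 ≤ (η * f x + d) ^ 2 / η := by positivity
      have e5 : (η * f x - d) ^ 2 / η = η * f x ^ 2 - 2 * f x * d + 1 / η * d ^ 2 := by
        field_simp; ring
      have e6 : (η * f x + d) ^ 2 / η = η * f x ^ 2 + 2 * f x * d + 1 / η * d ^ 2 := by
        field_simp; ring
      have h7 : 0 ≤ d ^ 2 := sq_nonneg d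
      rw [e, abs_le]
      constructor <;> nlinarith
    calc |c x| * |fn n x ^ 2 - f x ^ 2|
        ≤ |c x| * (η * f x ^ 2 + (1 + 1 / η) * (fn n x - f x) ^ 2) :=
          mul_le_mul_of_nonneg_left h4 (abs_nonneg _)
      _ = _ := by ring
  rw [Metric.tendsto_atTop]
  intro ε hε
  have hη : 0 < ε / (2 * (A + 1)) := by positivity
  have h4 := (ht.const_mul (1 + 1 / (ε / (2 * (A + 1))))).eventually
    (gt_mem_nhds (show (1 + 1 / (ε / (2 * (A + 1)))) * 0 < ε / 2 by simpa using hε))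
  obtain ⟨n0, hn0⟩ := eventually_atTop.1 h4
  refine ⟨n0, fun n hn => ?_⟩
  rw [Real.dist_eq]
  refine (key _ hη n).trans_lt ?_
  have h5 : ε / (2 * (A + 1)) * A ≤ ε / 2 := by
    rw [div_mul_eq_mul_div, div_le_div_iff₀ (by positivity) (by norm_num)]
    nlinarith
  linarith [hn0 n hn]

theorem tendsto_sq {α : Type*} [MeasurableSpace α] {μ : Measure α} {f : α → ℝ}
    {fn : ℕ → α → ℝ} (h1 : MemLp f 2 μ) (h2 : ∀ n, MemLp (fn n) 2 μ)
    (ht : Tendsto (fun n => ∫ x, (fn n x - f x) ^ 2 ∂μ) atTop (𝓝 0)) :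
    Tendsto (fun n => ∫ x, fn n x ^ 2 ∂μ) atTop (𝓝 (∫ x, f x ^ 2 ∂μ)) := by
  have h := tendsto_weighted (c := fun _ => 1) (f := f) (fn := fn) (μ := μ)
    (by simpa using h1.integrable_sq) (fun n => by simpa using (h2 n).integrable_sq)
    (fun n => by simpa using ((h2 n).sub h1).integrable_sq) (by simpa using ht)
  simpa using h

/-- The potential energy is continuous in `H¹`. -/
theorem FB.tendsto {w : Conf N → ℝ} (hw : FB w) {f : Conf N → ℝ}
    {g : Fin N → Fin 3 → Conf N → ℝ} {fn : ℕ → Conf N → ℝ}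
    {gn : ℕ → Fin N → Fin 3 → Conf N → ℝ} (h : H1 f g) (hn : ∀ n, H1 (fn n) (gn n))
    (hf : Tendsto (fun n => ∫ x, (fn n x - f x) ^ 2) atTop (𝓝 0))
    (hg : ∀ i k, Tendsto (fun n => ∫ x, (gn n i k x - g i k x) ^ 2) atTop (𝓝 0)) :
    Tendsto (fun n => ∫ x, w x * fn n x ^ 2) atTop (𝓝 (∫ x, w x * f x ^ 2)) := by
  have h1 := hw.integrable h
  have h2 := fun n => hw.integrable (hn n)
  obtain ⟨-, C, hC0, hC⟩ := hw
  refine tendsto_weighted h1 h2 (fun n => (hC _ _ ((hn n).sub h)).1) ?_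
  have h3 : Tendsto (fun n => C * h1sq (fun x => fn n x - f x) (fun i k x => gn n i k x - g i k x))
      atTop (𝓝 0) := by
    have h4 := (hf.add (tendsto_finsetSum univ fun i _ => tendsto_finsetSum univ
      fun k _ => hg i k)).const_mul C
    simpa [h1sq] using h4
  exact squeeze_zero (fun n => integral_nonneg fun x => by positivity)
    (fun n => (hC _ _ ((hn n).sub h)).2) h3

end

end Vale.Agent.P370Z.BRIDGE
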