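import Vale.Agent.P370Z.BRIDGE.Scale

/-!
# P370, bridge between the states of the statement and real `C¹` wave functions
-/

namespace Vale.Agent.P370Z

open MeasureTheory Finset Filter Topology
open Vale.Agent.P363.Stmt Vale.Agent.P363.R.Sob Vale.Agent.P363.H382

noncomputable section

namespace BRIDGE

variable {N : ℕ}

theorem h1_part (Ψ : ElectronState N) (L : ℂ →L[ℝ] ℝ) (s : Sp N) :
    H1 (fun x => L (Ψ.amp s x)) (fun i k x => L (Ψ.grad s i k x)) :=
  ⟨L.comp_memLp' (amp_L2 Ψ s), fun i k => L.comp_memLp' (grad_L2 Ψ s i k), fun i k =>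
    (grad_WD Ψ s i k).clm_comp L
      (fun _ hφ => hφ.integrable_smul ((amp_L2 Ψ s).locallyIntegrable (by norm_num)))
      (fun _ hφ => hφ.integrable_smul ((grad_L2 Ψ s i k).locallyIntegrable (by norm_num)))⟩

theorem map_int_mul (L : ℂ →L[ℝ] ℝ) (n : ℤ) (z : ℂ) : L ((n : ℂ) * z) = (n : ℝ) * L z := by
  rw [← zsmul_eq_mul, map_zsmul, zsmul_eq_mul]

theorem norm_sq_parts (z : ℂ) : ‖z‖ ^ 2 = Complex.reCLM z ^ 2 + Complex.imCLM z ^ 2 := by
  rw [Complex.sq_norm, Complex.normSq_apply]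
  simp only [Complex.reCLM_apply, Complex.imCLM_apply]
  ring

/-- A lower bound for admissible real functions holds for all states. -/
theorem low_state {w : Conf N → ℝ} (hw : FB w) {b : ℝ}
    (h : ∀ f : Sp N → Conf N → ℝ, AdmC f → b * nsqC f ≤ enC w f) (Ψ : ElectronState N) :
    b * normSq Ψ ≤ energy w Ψ := by
  have key : ∀ L : ℂ →L[ℝ] ℝ, b * nsqC (fun s x => L (Ψ.amp s x)) ≤
      enG w (fun s x => L (Ψ.amp s x)) (fun s i k x => L (Ψ.grad s i k x)) := by
    intro L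
    refine low_real hw h (h1_part Ψ L) (fun σ s => ?_) (fun σ s i k => ?_)
    · filter_upwards [amp_perm Ψ σ s] with x hx
      rw [hx, map_int_mul]
    · filter_upwards [grad_perm Ψ σ s i k] with x hx
      rw [hx, map_int_mul]
  have h1 : normSq Ψ = nsqC (fun s x => Complex.reCLM (Ψ.amp s x)) +
      nsqC (fun s x => Complex.imCLM (Ψ.amp s x)) := by
    rw [normSq_eq, nsqC, nsqC, ← sum_add_distrib]
    refine sum_congr rfl fun s _ => ?_
    rw [← integral_add (h1_part Ψ _ s).mf.integrable_sq (h1_part Ψ _ s).mf.integrable_sq]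
    simp only [norm_sq_parts]
  have h2 : energy w Ψ =
      enG w (fun s x => Complex.reCLM (Ψ.amp s x)) (fun s i k x => Complex.reCLM (Ψ.grad s i k x)) +
      enG w (fun s x => Complex.imCLM (Ψ.amp s x))
        (fun s i k x => Complex.imCLM (Ψ.grad s i k x)) := by
    have h3 : ∀ s i k, ∫ x, ‖Ψ.grad s i k x‖ ^ 2 = (∫ x, Complex.reCLM (Ψ.grad s i k x) ^ 2) +
        ∫ x, Complex.imCLM (Ψ.grad s i k x) ^ 2 := by
      intro s i k
      rw [← integral_add ((h1_part Ψ _ s).mg i k).integrable_sq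
        ((h1_part Ψ _ s).mg i k).integrable_sq]
      simp only [norm_sq_parts]
    have h4 : ∀ s, ∫ x, w x * ‖Ψ.amp s x‖ ^ 2 = (∫ x, w x * Complex.reCLM (Ψ.amp s x) ^ 2) +
        ∫ x, w x * Complex.imCLM (Ψ.amp s x) ^ 2 := by
      intro s
      rw [← integral_add (hw.integrable (h1_part Ψ _ s)) (hw.integrable (h1_part Ψ _ s))]
      simp only [norm_sq_parts, mul_add]
    rw [energy_eq, kinE, potE, enG, enG]
    simp only [h3, h4, sum_add_distrib, ← mul_sum]
    ring
  rw [h1, h2, mul_add]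
  exact add_le_add (key _) (key _)

/-- An admissible real function as a state. -/
def toState (f : Sp N → Conf N → ℝ) (hf : AdmC f) (c : ℝ) : ElectronState N where
  amp s x := ((c * f s x : ℝ) : ℂ)
  grad s i k x := ((c * fderiv ℝ (f s) x (dir i k) : ℝ) : ℂ)
  amp_memLp s := ((H1.of_c1c (hf.1 s)).mf.const_mul c).ofReal
  grad_memLp s i k := (((H1.of_c1c (hf.1 s)).mg i k).const_mul c).ofReal
  grad_weak s i k := by
    have h := H1.of_c1c (hf.1 s)
    refine isWeakDeriv_iff.2 (((h.wd i k).const_smul c).clm_comp Complex.ofRealCLM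
      (fun _ hφ => hφ.integrable_smul ((h.mf.const_smul c).locallyIntegrable (by norm_num)))
      (fun _ hφ => hφ.integrable_smul (((h.mg i k).const_smul c).locallyIntegrable (by norm_num))))
  antisymm σ s := Eventually.of_forall fun x => by
    rw [hf.2 σ s x]
    push_cast
    ring

theorem normSq_toState (f : Sp N → Conf N → ℝ) (hf : AdmC f) (c : ℝ) :
    normSq (toState f hf c) = c ^ 2 * nsqC f := by
  rw [normSq_eq, nsqC, mul_sum]
  refine sum_congr rfl fun s _ => ?_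
  rw [← integral_const_mul]
  simp only [toState, Complex.norm_real, Real.norm_eq_abs, sq_abs, mul_pow]

theorem energy_toState (w : Conf N → ℝ) (f : Sp N → Conf N → ℝ) (hf : AdmC f) (c : ℝ) :
    energy w (toState f hf c) = c ^ 2 * enC w f := by
  rw [energy_eq, kinE, potE, enC, enG]
  have h : ∀ s, ∫ x, w x * (c ^ 2 * f s x ^ 2) = c ^ 2 * ∫ x, w x * f s x ^ 2 := fun s => by
    rw [← integral_const_mul]
    simp only [mul_left_comm]
  simp only [toState, Complex.norm_real, Real.norm_eq_abs, sq_abs, mul_pow, integral_const_mul, h,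
    sum_add_distrib, ← mul_sum]
  ring

end BRIDGE

open BRIDGE

theorem bridge_low (I : Instance) (lam b : ℝ) (hlam : 0 < lam)
    (h : ∀ Ψ : Sp I.N → Cf I.N → ℝ, Adm Ψ → b * nsq Ψ ≤ en (scPot I lam) (1 / lam) Ψ) :
    ((lam ^ 2 * b : ℝ) : EReal) ≤ I.groundEnergy := by
  obtain ⟨J, hJ, hsc⟩ := exists_scale I hlam
  refine le_iInf fun Ψ => EReal.coe_le_coe_iff.2 ?_
  have h1 := low_state (fb_potential I) (b := lam ^ 2 * b) (fun f hf => ?_) Ψ.1
  · rwa [Ψ.2, mul_one] at h1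
  · have h2 := h _ (adm_sc hlam.ne' hf)
    rw [(hsc f hf).1, (hsc f hf).2, mul_left_comm] at h2
    have h3 := le_of_mul_le_mul_left h2 hJ
    rw [inv_mul_eq_div, le_div_iff₀ (by positivity)] at h3
    linarith

theorem bridge_up (I : Instance) (lam a : ℝ) (hlam : 0 < lam)
    (h : ∃ Ψ : Sp I.N → Cf I.N → ℝ, Adm Ψ ∧ 0 < nsq Ψ ∧
      en (scPot I lam) (1 / lam) Ψ ≤ a * nsq Ψ) :
    I.groundEnergy ≤ ((lam ^ 2 * a : ℝ) : EReal) := by
  obtain ⟨J, hJ, hsc⟩ := exists_scale I hlam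
  obtain ⟨Ψ, hΨ, hpos, hle⟩ := h
  have hf := admC_sc hlam.ne' hΨ
  obtain ⟨h1, h2⟩ := hsc _ hf
  simp only [ContinuousLinearEquiv.symm_apply_apply] at h1 h2
  set f : Sp I.N → Conf I.N → ℝ := fun s y => Ψ s ((sc I.N lam hlam.ne').symm y) with hfdef
  have h1' : nsq Ψ = J * nsqC f := h1
  have h2' : en (scPot I lam) (1 / lam) Ψ = J * ((lam ^ 2)⁻¹ * enC I.potential f) := h2
  have hn : 0 < nsqC f := by
    rw [h1'] at hpos
    exact (mul_pos_iff_of_pos_left hJ).1 hpos
  rw [h1', h2', mul_left_comm a] at hle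
  have h3 := le_of_mul_le_mul_left hle hJ
  rw [inv_mul_eq_div, div_le_iff₀ (by positivity)] at h3
  have hc : (√(nsqC f))⁻¹ ^ 2 = (nsqC f)⁻¹ := by rw [inv_pow, Real.sq_sqrt hn.le]
  have hnorm : normSq (toState f hf (√(nsqC f))⁻¹) = 1 := by
    rw [normSq_toState, hc, inv_mul_cancel₀ hn.ne']
  refine iInf_le_of_le ⟨_, hnorm⟩ (EReal.coe_le_coe_iff.2 ?_)
  rw [energy_toState, hc, inv_mul_eq_div, div_le_iff₀ hn]
  linarith

end

end Vale.Agent.P370Z
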