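import Vale.Agent.P370Z.BRIDGE.Approx

/-!
# P370, bridge: change of coordinates and of scale
-/

namespace Vale.Agent.P370Z.BRIDGE

open MeasureTheory Finset Filter Topology
open Vale.Agent.P363.Stmt Vale.Agent.P363.R.Sob Vale.Agent.P363.H382

noncomputable section

variable {N : ℕ}

/-- From scaled coordinates to physical positions. -/
def sc (N : ℕ) (lam : ℝ) (hlam : lam ≠ 0) : Cf N ≃L[ℝ] Conf N :=
  LinearEquiv.toContinuousLinearEquiv
    { toFun := fun x i => WithLp.toLp 2 (lam⁻¹ • x i)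
      invFun := fun y i => lam • (y i).ofLp
      map_add' := fun x y => by
        funext i
        simp
      map_smul' := fun c x => by
        funext i
        simp only [Pi.smul_apply, RingHom.id_apply]
        rw [smul_comm, WithLp.toLp_smul]
      left_inv := fun x => by
        funext i
        simp [smul_smul, hlam]
      right_inv := fun y => by
        funext i
        simp [smul_smul, hlam] }

theorem sc_apply (lam : ℝ) (hlam : lam ≠ 0) (x : Cf N) (i : Fin N) :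
    sc N lam hlam x i = WithLp.toLp 2 (lam⁻¹ • x i) := rfl

theorem sc_perm (lam : ℝ) (hlam : lam ≠ 0) (x : Cf N) (π : Equiv.Perm (Fin N)) :
    sc N lam hlam (x ∘ π) = sc N lam hlam x ∘ π := rfl

theorem sc_symm_perm (lam : ℝ) (hlam : lam ≠ 0) (y : Conf N) (π : Equiv.Perm (Fin N)) :
    (sc N lam hlam).symm (y ∘ π) = (sc N lam hlam).symm y ∘ π := rfl

theorem sc_single (lam : ℝ) (hlam : lam ≠ 0) (i : Fin N) (k : Fin 3) :
    sc N lam hlam (Pi.single i (Pi.single k 1)) = lam⁻¹ • dir i k := by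
  funext j
  rw [sc_apply]
  by_cases h : j = i
  · subst h
    simp only [dir, e3, Pi.single_eq_same, Pi.smul_apply, WithLp.toLp_smul]
    rfl
  · simp [dir, h]

theorem exists_jac (lam : ℝ) (hlam : lam ≠ 0) :
    ∃ J : ℝ, 0 < J ∧ ∀ G : Conf N → ℝ, ∫ x : Cf N, G (sc N lam hlam x) = J * ∫ y, G y := by
  refine ⟨|(lam⁻¹ ^ Module.finrank ℝ (Cf N))⁻¹|, by positivity, fun G => ?_⟩
  have h1 : MeasurePreserving (sc N 1 one_ne_zero : Cf N → Conf N) volume volume := by
    have := volume_preserving_pi (ι := Fin N) (α' := fun _ => Fin 3 → ℝ) (β' := fun _ => R3)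
      (f := fun _ => WithLp.toLp 2) fun _ => PiLp.volume_preserving_toLp (Fin 3)
    have e : (sc N 1 one_ne_zero : Cf N → Conf N) = fun a i => WithLp.toLp 2 (a i) := by
      funext x i
      simp [sc_apply]
    rw [e]
    exact this
  have h2 := Measure.integral_comp_smul (μ := (volume : Measure (Cf N)))
    (fun x => G (sc N 1 one_ne_zero x)) lam⁻¹
  rw [integral_comp_equiv _ h1, smul_eq_mul] at h2
  rw [← h2]
  congr 1
  funext x
  congr 1
  funext i
  simp [sc_apply]

theorem nrm_eq (x : P3) : nrm x = ‖(WithLp.toLp 2 x : R3)‖ := by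
  rw [EuclideanSpace.norm_eq, nrm]
  simp

theorem nrm_smul {lam : ℝ} (hlam : 0 < lam) (x : P3) : nrm (lam • x) = lam * nrm x := by
  rw [nrm_eq, nrm_eq, WithLp.toLp_smul, norm_smul, Real.norm_eq_abs, abs_of_pos hlam]

theorem point_eq (p : ℚ × ℚ × ℚ) : point p = WithLp.toLp 2 (pt p) := rfl

theorem potential_sc (I : Instance) {lam : ℝ} (hlam : 0 < lam) (x : Cf I.N) :
    (∑ i, scPot I lam (x i)) + 1 / lam * rep x =
      (lam ^ 2)⁻¹ * I.potential (sc I.N lam hlam.ne' x) := by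
  have h1 : ∀ (u : P3) (p : ℚ × ℚ × ℚ), nrm (u - lam • pt p) =
      lam * ‖(WithLp.toLp 2 (lam⁻¹ • u) : R3) - point p‖ := by
    intro u p
    rw [point_eq, ← WithLp.toLp_sub, ← nrm_eq, ← nrm_smul hlam, smul_sub, smul_smul,
      mul_inv_cancel₀ hlam.ne', one_smul]
  have h2 : ∀ u v : P3, nrm (u - v) =
      lam * ‖(WithLp.toLp 2 (lam⁻¹ • u) : R3) - WithLp.toLp 2 (lam⁻¹ • v)‖ := by
    intro u v
    rw [← WithLp.toLp_sub, ← nrm_eq, ← nrm_smul hlam, smul_sub, smul_smul, smul_smul,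
      mul_inv_cancel₀ hlam.ne', one_smul, one_smul]
  unfold Instance.potential scPot rep
  rw [mul_add, mul_neg, sum_neg_distrib, mul_sum, mul_sum, mul_sum]
  congr 1
  · congr 1
    refine sum_congr rfl fun i _ => ?_
    rw [← List.sum_map_mul_left]
    congr 1
    refine List.map_congr_left fun n _ => ?_
    rw [h1, sc_apply, div_eq_mul_inv, div_eq_mul_inv, div_eq_mul_inv, mul_inv]
    ring
  · refine sum_congr rfl fun i _ => ?_
    rw [mul_sum, mul_sum]
    refine sum_congr rfl fun j _ => ?_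
    rw [h2, sc_apply, sc_apply, one_div, one_div, one_div, mul_inv]
    ring

theorem pdN_sc {lam : ℝ} (hlam : lam ≠ 0) {f : Conf N → ℝ} (hf : C1c f) (i : Fin N) (k : Fin 3)
    (x : Cf N) : pdN i k (fun x => f (sc N lam hlam x)) x =
      lam⁻¹ * fderiv ℝ f (sc N lam hlam x) (dir i k) := by
  have h := ((hf.1.differentiable (by simp) (sc N lam hlam x)).hasFDerivAt.comp x
    (sc N lam hlam).hasFDerivAt).fderiv
  unfold pdN
  change fderiv ℝ (f ∘ sc N lam hlam) x _ = _
  rw [h, ContinuousLinearMap.comp_apply, ContinuousLinearEquiv.coe_coe, sc_single, map_smul,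
    smul_eq_mul]

theorem adm_sc {lam : ℝ} (hlam : lam ≠ 0) {f : Sp N → Conf N → ℝ} (hf : AdmC f) :
    Adm fun s x => f s (sc N lam hlam x) :=
  ⟨fun s => ⟨(hf.1 s).1.comp (sc N lam hlam).contDiff,
    (hf.1 s).2.comp_homeomorph (sc N lam hlam).toHomeomorph⟩,
    fun π s x => hf.2 π s (sc N lam hlam x)⟩

theorem admC_sc {lam : ℝ} (hlam : lam ≠ 0) {Ψ : Sp N → Cf N → ℝ} (hΨ : Adm Ψ) :
    AdmC fun s y => Ψ s ((sc N lam hlam).symm y) :=
  ⟨fun s => ⟨(hΨ.1 s).1.comp (sc N lam hlam).symm.contDiff,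
    (hΨ.1 s).2.comp_homeomorph (sc N lam hlam).symm.toHomeomorph⟩,
    fun π s y => hΨ.2 π s ((sc N lam hlam).symm y)⟩

/-- Norm and energy in the two coordinate systems. -/
theorem exists_scale (I : Instance) {lam : ℝ} (hlam : 0 < lam) :
    ∃ J : ℝ, 0 < J ∧ ∀ f : Sp I.N → Conf I.N → ℝ, AdmC f →
      nsq (fun s x => f s (sc I.N lam hlam.ne' x)) = J * nsqC f ∧
      en (scPot I lam) (1 / lam) (fun s x => f s (sc I.N lam hlam.ne' x)) =
        J * ((lam ^ 2)⁻¹ * enC I.potential f) := by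
  obtain ⟨J, hJ, h⟩ := exists_jac (N := I.N) lam hlam.ne'
  refine ⟨J, hJ, fun f hf => ⟨?_, ?_⟩⟩
  · unfold nsq nsqC
    rw [mul_sum]
    exact sum_congr rfl fun s _ => h fun y => f s y ^ 2
  · unfold en enC enG
    rw [mul_sum, mul_sum]
    refine sum_congr rfl fun s _ => ?_
    have h1 : ∀ i k, ∫ x, pdN i k (fun x => f s (sc I.N lam hlam.ne' x)) x ^ 2 =
        J * ((lam ^ 2)⁻¹ * ∫ y, fderiv ℝ (f s) y (dir i k) ^ 2) := by
      intro i k
      simp only [pdN_sc hlam.ne' (hf.1 s)]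
      rw [h fun y => (lam⁻¹ * fderiv ℝ (f s) y (dir i k)) ^ 2, ← integral_const_mul (lam ^ 2)⁻¹]
      simp only [mul_pow, inv_pow]
    have h2 : ∫ x, ((∑ i, scPot I lam (x i)) + 1 / lam * rep x) * f s (sc I.N lam hlam.ne' x) ^ 2 =
        J * ((lam ^ 2)⁻¹ * ∫ y, I.potential y * f s y ^ 2) := by
      simp only [potential_sc I hlam]
      rw [h fun y => (lam ^ 2)⁻¹ * I.potential y * f s y ^ 2, ← integral_const_mul (lam ^ 2)⁻¹]
      simp only [mul_assoc]
    simp only [h1, h2, ← mul_sum]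
    ring

end

end Vale.Agent.P370Z.BRIDGE
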